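import Vale.Agent.P133.Bdl.B1

namespace Vale.Agent.Results.P133.PurelyInfiniteIffStrongly

universe u

open Vale.Agent.P133.Statement

/-- A C*-algebra is purely infinite if and only if it is strongly purely infinite. -/
theorem result (A : Type u) [NonUnitalCStarAlgebra A] [PartialOrder A] [StarOrderedRing A] :
    PurelyInfinite A ↔ StronglyPurelyInfinite A := by
  refine ⟨fun hA x y hx hy ε hε => ?_, fun hA => pi_of_spi hA⟩
  exact Vale.Agent.P133.main A (fun h h0 ε hε => elementwise hA h h0 ε hε) x y hx hy ε hε

end Vale.Agent.Results.P133.PurelyInfiniteIffStrongly
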